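import Crest.Agent.X212.Bd44.Vol
import Crest.Agent.X212.Sw88.Wz

/-!
# Row 212, GEO engine (helper44), E-BD: uniform bounds
-/

set_option autoImplicit false
set_option linter.unusedSectionVars false
set_option maxHeartbeats 400000
noncomputable section
open scoped Manifold ContDiff Topology InnerProductSpace ENNReal
open MeasureTheory Set Function Filter

namespace Crest.Agent.X212.Bd44
open An Cyf70 Sw Flo2 Geo28 Met55 Sw87.Mo
open Prm93 (JS JF JAt)
open Pj41 (FRel)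
open Gm56 (cn mZ)

variable {κ : Type} [Fintype κ] [DecidableEq κ] {μ : Type} [Fintype μ] [DecidableEq μ]

section cd
variable {E : Type} [NormedAddCommGroup E] [NormedSpace ℝ E] [FiniteDimensional ℝ E]
  [MeasurableSpace E] [BorelSpace E] {H : Type} [TopologicalSpace H] {I : ModelWithCorners ℝ E H}
  {Z : Type} [TopologicalSpace Z] [ChartedSpace H Z] [IsManifold I ∞ Z] [MeasurableSpace Z]
  {E' : Type} [NormedAddCommGroup E'] [NormedSpace ℝ E'] [FiniteDimensional ℝ E']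
  [MeasurableSpace E'] [BorelSpace E'] {H' : Type} [TopologicalSpace H']
  {I' : ModelWithCorners ℝ E' H'}
  {Z' : Type} [TopologicalSpace Z'] [ChartedSpace H' Z'] [IsManifold I' ∞ Z'] [MeasurableSpace Z']
  {ν : Type} [Fintype ν] {F : Fr I Z (Option κ)}
  {A : Option κ → Z → En ν} {a : Option κ} {s s' : Z → En ν} {x : Z}

/-- the covariant derivative of an endomorphism -/
def cd (F : Fr I Z (Option κ)) (A : Option κ → Z → En ν) (a : Option κ) (s : Z → En ν)
    (x : Z) : En ν := F.D a s x + (A a x * s x - s x * A a x)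

theorem cd_add (h : Sm I s) (h' : Sm I s') :
    cd F A a (fun y => s y + s' y) x = cd F A a s x + cd F A a s' x := by
  rw [cd, cd, cd, show F.D a (fun y => s y + s' y) x = _ from congrFun (F.D_add h h' a) x,
    Pi.add_apply, mul_add, add_mul]
  abel

theorem cd_sum {J : Type} [Fintype J] {s : J → Z → En ν} (h : ∀ j, Sm I (s j)) :
    cd F A a (fun y => ∑ j, s j y) x = ∑ j, cd F A a (s j) x := by
  simp only [cd, Pre.D_def, Wz78.dv_sum' _ fun j => h j x, Finset.mul_sum, Finset.sum_mul,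
    Finset.sum_add_distrib, Finset.sum_sub_distrib]

theorem cd_smul {g : Z → ℝ} (hg : Sm I g) (h : Sm I s) :
    cd F A a (fun y => g y • s y) x = F.D a g x • s x + g x • cd F A a s x := by
  simp only [cd, Pre.D_def, Sob92.dv_smul (hg.mdifferentiableAt (by simp))
    (h.mdifferentiableAt (by simp)), mul_smul_comm, smul_mul_assoc, smul_add, smul_sub, add_assoc]

theorem cd_zero (h : ∀ᶠ y in 𝓝 x, s y = 0) : cd F A a s x = 0 := by
  rw [cd, Pre.D_def, Sob92.dv_congr (v := 0) h, h.self_of_nhds]; simp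

theorem cd_rel {F' : Fr I' Z' (Option κ)} {A' : Option κ → Z' → En ν} {s' : Z' → En ν}
    {ψ : Z → Z'} {O : Set Z} (h : FRel F F' ψ O) (hx : x ∈ O) (hA : A a x = A' a (ψ x))
    (e : ∀ᶠ y in 𝓝 x, s y = s' (ψ y)) : cd F A a s x = cd F' A' a s' (ψ x) := by
  rw [cd, cd, h.D hx a e, hA, e.self_of_nhds]

theorem cd_tw {A' : Option κ → Z → En ν} {r : ℝ} {T : En ν} (h : T * s x = s x * T)
    (e : A' a x = A a x + r • T) : cd F A' a s x = cd F A a s x := by
  rw [cd, cd, e, add_mul, mul_add, smul_mul_assoc, mul_smul_comm, h, add_sub_add_right_eq_sub]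

end cd

theorem jp_ms {Z : M.Mf 4} {lam ν : Type} [Fintype lam] [Fintype ν] [DecidableEq ν] {n : ℕ}
    {b : Bg Z.I Z.M κ lam ν n} (hb : b.OK) (x : Z.M) :
    b.m.J * b.m.p x * b.ms x = b.ms x * (b.m.J * b.m.p x) := by
  rw [mul_assoc, Sw88.p_ms hb, ← mul_assoc, ← hb.msJ, mul_assoc, Sw88.ms_p hb]

variable {X : M4} {k : ℕ} {τ : MT κ X} {β : MB τ k}

/-! ### the masses of the core -/

theorem js_cn (c : MC μ β) (a : Option κ) : JS X.I univ fun t => cn (β.F t) c.m.re a := by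
  have hp : JS X.I univ fun _ : Tk k => c.m.re.p := fun _ _ x => JAt.of_fixed (c.mon.re.sp x trivial)
  have hρ : ∀ b, JS X.I univ fun _ : Tk k => c.m.re.ρ b := fun b _ _ x =>
    JAt.of_fixed (c.mon.re.sρ b x trivial)
  exact Spn45.kl_w2 (K := Spn45.jsK X.I univ) (φ := Prod.snd) (e := fun z => (β.F z.1).e)
    (Γ := fun z => (β.F z.1).Gam) hp hρ (fun a => (jf β).D hp a) (fun a b => (jf β).D (hρ b) a)
    (jf β).Gam a

theorem bd_mc (c : MC μ β) (hL : Lng β.wl c.mc) : ∃ C, ∀ t ∈ dom β.wl, ∀ x, ‖c.mc t x‖ ≤ C ∧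
    ∀ a, ‖cd (β.F t) (cn (β.F t) c.m.re) a (c.mc t) x‖ ≤ C := by
  obtain ⟨C, hC⟩ := bdd (β := β) (g := fun t x => ‖c.mc t x‖ +
    ∑ a, ‖cd (β.F t) (cn (β.F t) c.m.re) a (c.mc t) x‖) fun t x => by
      have h1 := (c.smc t trivial x).continuousAt
      refine h1.norm.add (tendsto_finsetSum _ fun a _ => ContinuousAt.norm ?_)
      have h2 := (js_cn c a t trivial x).continuousAt
      exact ((jf β).D c.smc a t trivial x).continuousAt.add ((h2.mul h1).sub (h1.mul h2))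
  refine ⟨max C 0, fun t ht x => ?_⟩
  by_cases hx : x ∈ Kt β 1 0 t
  · have h1 := Kt_sub one_lt_two (by norm_num) t hx
    have h2 := hC t ht x h1.1
    have h3 : ∀ a, cd (β.F t) (cn (β.F t) c.m.re) a (c.mc t) x =
        cd (β.F (rt t)) (cn (β.F (rt t)) c.m.re) a (c.mc t) x := fun a => cd_rel (agr ht).rel h1.2
      (Gm56.cn_lit (agr ht).rel (fun _ _ => rfl) (fun _ _ _ => rfl) h1.2 a) (.of_forall fun _ => rfl)
    simp only [lng_rt hL ht, ← h3] at h2
    exact ⟨le_max_of_le_left ((le_add_of_nonneg_right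
      (Finset.sum_nonneg fun _ _ => norm_nonneg _)).trans h2), fun a => le_max_of_le_left
        (((Finset.single_le_sum (f := fun a => ‖cd (β.F t) (cn (β.F t) c.m.re) a (c.mc t) x‖)
          (fun _ _ => norm_nonneg _) (Finset.mem_univ a)).trans
            (le_add_of_nonneg_left (norm_nonneg _))).trans h2)⟩
  · obtain ⟨i, hi, h⟩ : ∃ i, 1 < β.v t i ∧ x ∈ (τ.nb i).U 0 := by
      by_contra hn
      exact hx fun i hi h => hn ⟨i, hi, h⟩
    refine ⟨by simp [c.m0 t i hi x h], fun a => ?_⟩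
    rw [cd_zero ((((τ.nb i).U_open 0).eventually_mem h).mono (c.m0 t i hi)), norm_zero]
    exact le_max_right _ _

/-! ### the masses of the bands -/

theorem jm_ev {s : Option Bool} {σ : ℝ} (h : σ ∉ Jm s (1 / 2)) : ∀ᶠ r in 𝓝 σ, r ∉ Jm s (1 / 4) := by
  rcases s with _ | _ | _
  · simp only [jm_none, not_and_or, not_lt] at h ⊢
    rcases h with h | h
    · exact (eventually_le_nhds (by linarith)).mono fun _ => .inl
    · exact (eventually_ge_nhds (by linarith)).mono fun _ => .inr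
  · simp only [jm_in, not_lt] at h ⊢
    exact eventually_ge_nhds (by linarith)
  · simp only [jm_out, not_lt] at h ⊢
    exact eventually_le_nhds (by linarith)

theorem ext_ev {b : NB κ X} {V : Type} [AddCommGroup V] [Module ℝ V] (f : b.e.A.Y.M → V) {x : X.M}
    (h : x ∉ b.U (1 / 2)) : ∀ᶠ y in 𝓝 x, b.ext f y = 0 :=
  (b.n.cont.continuousAt.eventually (jm_ev h)).mono fun _ => NB.ext_zero f

theorem ext_sm {b : NB κ X} {V : Type} [NormedAddCommGroup V] [NormedSpace ℝ V] {f : b.e.A.Y.M → V}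
    (hf : Sm b.e.A.Y.I f) : Sm X.I (b.ext f) := fun x => by
  by_cases h : x ∈ b.U (1 / 2)
  · have h1 := b.k.open_target.mem_nhds (b.U_sub (by norm_num) h)
    have h2 := b.sm'.contMDiffAt h1
    refine (((cu_sm b.s).contMDiff.contMDiffAt.comp x h2.snd).smul
      ((hf _).comp x h2.fst)).congr_of_eventuallyEq (eventually_of_mem h1 fun y hy => ?_)
    rw [NB.ext, ← NB.symm_snd hy]; rfl
  · exact contMDiffAt_const.congr_of_eventuallyEq (ext_ev f h)

theorem cu_mem (s : Option Bool) (σ : ℝ) : |cu s σ| ≤ 1 := by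
  have h0 := Real.smoothTransition.nonneg
  have h1 := Real.smoothTransition.le_one
  rw [abs_of_nonneg] <;> rcases s with _ | _ | _ <;>
    simp [cu, pa, qa, h0, h1, mul_nonneg, mul_le_one₀]

theorem cu_der : ∃ L, ∀ s σ, |deriv (cu s) σ| ≤ L := by
  have h : ∀ s, ∃ L, ∀ σ, ‖deriv (cu s) σ‖ ≤ L := fun s =>
    ((cu_sm s).continuous_deriv (by simp)).bounded_above_of_compact_support
      (HasCompactSupport.intro (isCompact_Icc (a := -2) (b := 4)) fun σ hσ => by
        obtain ⟨r, hr⟩ : ∃ r, cu s =ᶠ[𝓝 σ] fun _ => r := by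
          rcases not_and_or.1 hσ with h | h <;> rw [not_le] at h <;> rcases s with _ | _ | _
          exacts [⟨0, (eventually_lt_nhds h).mono fun _ h => cu_zero fun k => by
              linarith [(jm_none.1 k).1]⟩,
            ⟨1, (eventually_lt_nhds h).mono fun _ h => cu_one (jm_in.2 (by linarith))⟩,
            ⟨0, (eventually_lt_nhds h).mono fun _ h => cu_zero fun k => by linarith [jm_out.1 k]⟩,
            ⟨0, (eventually_gt_nhds h).mono fun _ h => cu_zero fun k => by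
              linarith [(jm_none.1 k).2]⟩,
            ⟨0, (eventually_gt_nhds h).mono fun _ h => cu_zero fun k => by linarith [jm_in.1 k]⟩,
            ⟨1, (eventually_gt_nhds h).mono fun _ h => cu_one (jm_out.2 (by linarith))⟩]
        rw [hr.deriv_eq, deriv_const])
  choose L hL using h
  obtain ⟨C, hC⟩ := (finite_range L).bddAbove
  exact ⟨C, fun s σ => (hL s σ).trans (hC ⟨s, rfl⟩)⟩

theorem frel {t : Tk k} {i : τ.N} (h : 1 < β.v t i) : FRel (τ.nb i).e.D.Z (β.F t)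
    ((τ.nb i).k ∘ cyH _ (β.v t i)) (cyH _ (β.v t i) ⁻¹' (τ.nb i).V (1 / 2)) := by
  have h1 : ∀ x, IsLocalDiffeomorphAt (IC _) (IC _) ∞ (cyH (τ.nb i).e.A.Y.M (β.v t i)) x := fun x =>
    ld_of_oph (φ := (cyH _ (β.v t i)).toOpenPartialHomeomorph) (cyH_sm _ _).contMDiffOn
      (cyH_sm' _ _).contMDiffOn trivial
  have h2 := fun x (hx : x ∈ (τ.nb i).V (1 / 2)) =>
    ld_of_oph (τ.nb i).sm (τ.nb i).sm' ((τ.nb i).V_sub (by norm_num) hx)
  refine ⟨((τ.nb i).V_open _).preimage (cyH _ _).continuous,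
    fun x hx => Cyl58.ld_comp (h2 _ hx) (h1 x), fun a x hx => ?_⟩
  rw [mfderiv_comp x ((h2 _ hx).mdifferentiableAt (by simp)) ((h1 x).mdifferentiableAt (by simp))]
  exact (congrArg _ (cyH_e _ _ a x)).trans (β.lit t i h a _ hx)

theorem cu_sm' (e : ET κ) (s : Option Bool) (v : ℝ) :
    Sm (IC e.A.Y.I) fun z : e.A.Y.M × ℝ => cu s ((stH v).symm z.2) :=
  ((cu_sm s).comp (stH_sm v)).contMDiff.comp contMDiff_snd

theorem D_cu {L : ℝ} (hL : ∀ s σ, |deriv (cu s) σ| ≤ L) (e : ET κ) (s : Option Bool) (v : ℝ)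
    (a : Option κ) (z : e.A.Y.M × ℝ) :
    ‖e.D.Z.D a (fun z => cu s ((stH v).symm z.2)) z‖ ≤ |L| := by
  have hg := (cu_sm' e s v z).mdifferentiableAt (by simp)
  cases a with
  | none =>
    have h1 := ((cu_sm s).differentiable (by simp) _).hasDerivAt.comp z.2 (stH_der v z.2)
    have h2 : 1 ≤ sd v ((stH v).symm z.2) :=
      le_add_of_nonneg_right (mul_nonneg (len_ge _) bt_mono.deriv_nonneg)
    rw [show e.D.Z.D none _ z = _ from (dv_none (e := e.D.F.e) hg).trans h1.deriv, norm_mul,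
      Real.norm_of_nonneg (r := _⁻¹) (by positivity)]
    exact (mul_le_of_le_one_right (norm_nonneg _) (inv_le_one_of_one_le₀ h2)).trans
      ((hL _ _).trans (le_abs_self _))
  | some a =>
    rw [show e.D.Z.D (some a) _ z = _ from dv_some hg a]
    simp

theorem bd_band {ν : Type} [Fintype ν] {L K v : ℝ} (hL : ∀ s σ, |deriv (cu s) σ| ≤ L) {b : NB κ X}
    {F : Fr X.I X.M (Option κ)} (R : FRel b.e.D.Z F (b.k ∘ cyH _ v) (cyH _ v ⁻¹' b.V (1 / 2)))
    {A : Option κ → X.M → En ν} {A0 : Option κ → b.e.A.Y.M × ℝ → En ν} {a : Option κ}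
    (hA : ∀ z ∈ cyH _ v ⁻¹' b.V (1 / 2), A0 a z = A a ((b.k ∘ cyH _ v) z))
    {f : b.e.A.Y.M → En ν} (hf : Sm b.e.A.Y.I f)
    (hK : ∀ z, ‖f z.1‖ ≤ K ∧ ‖cd b.e.D.Z A0 a (fun z => f z.1) z‖ ≤ K) (x : X.M) :
    ‖cd F A a (b.ext f) x‖ ≤ |L| * |K| + |K| := by
  by_cases hx : x ∈ b.U (1 / 2)
  swap
  · rw [cd_zero (ext_ev _ hx), norm_zero]; positivity
  obtain ⟨z, hz, rfl⟩ : ∃ z ∈ cyH _ v ⁻¹' b.V (1 / 2), (b.k ∘ cyH _ v) z = x :=
    ⟨(cyH _ v).symm (b.k.symm x), by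
      rw [mem_preimage, Homeomorph.apply_symm_apply]; exact NB.symm_mem (by norm_num) hx, by
      rw [comp_apply, Homeomorph.apply_symm_apply, b.k.right_inv (b.U_sub (by norm_num) hx)]⟩
  have e1 : ∀ y ∈ cyH _ v ⁻¹' b.V (1 / 2),
      cu b.s ((stH v).symm y.2) • f y.1 = b.ext f ((b.k ∘ cyH _ v) y) :=
    fun y hy => (NB.ext_k f (x := cyH _ v y) (b.V_sub (by norm_num) hy)).symm
  have e := cd_rel (s := fun z => cu b.s ((stH v).symm z.2) • f z.1) (s' := b.ext f) (A := A0)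
    (A' := A) (a := a) R hz (hA z hz) (by filter_upwards [R.op.mem_nhds hz] with y hy using e1 y hy)
  have e2 := cd_smul (F := b.e.D.Z) (A := A0) (a := a) (x := z) (cu_sm' b.e b.s v)
    (s := fun z => f z.1) (hf.comp contMDiff_fst)
  rw [← e, e2]
  refine (norm_add_le _ _).trans (add_le_add ?_ ?_) <;> rw [norm_smul]
  · exact mul_le_mul (D_cu hL _ _ _ _ _) ((hK z).1.trans (le_abs_self _)) (norm_nonneg _) (abs_nonneg _)
  · exact (mul_le_of_le_one_left (norm_nonneg _) (cu_mem _ _)).trans ((hK z).2.trans (le_abs_self _))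

theorem ms_sm (c : MC μ β) (i : τ.N) :
    Sm (τ.nb i).e.A.Y.I fun y : (τ.nb i).e.A.Y.M => (c.ty i).en.cyl.ms (y, 0) :=
  (c.std i).ok.cyl.cms.choose_spec.1.comp (contMDiff_id.prodMk contMDiff_const)

theorem bd_ext {L : ℝ} (hL : ∀ s σ, |deriv (cu s) σ| ≤ L) (c : MC μ β) {K : ℝ} {t : Tk k} {i : τ.N}
    (hK : EBd K (c.ty i)) (h : 1 < β.v t i) (a : Option κ) (x : X.M) :
    ‖cd (β.F t) (cn (β.F t) c.m.re) a ((τ.nb i).ext fun y => (c.ty i).en.cyl.ms (y, 0)) x‖ ≤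
      |L| * |K| + |K| := by
  refine bd_band hL (frel h) (A0 := cn (τ.nb i).e.D.Z (mZ ((c.ec i).m (c.cl i))))
    (fun z hz => Gm56.cn_lit (frel h) (fun y hy => (c.lit i _ hy).1.symm)
      (fun a y hy => ((c.lit i _ hy).2 a).symm) hz a) (ms_sm c i) (fun z => ⟨(hK z).1, ?_⟩) x
  rw [← cd_tw (Z := (τ.nb i).e.A.Y.M × ℝ) (A' := (c.ty i).en.cyl.A)
    (s := fun z => (c.ty i).en.cyl.ms (z.1, 0)) (T := (c.ty i).en.cyl.jp z) (r := a.elim 0 fun k => tw (c.ty i) k z.1)
    (jp_ms (Z := (c.ty i).en.Z) (c.std i).ok.cyl z)]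
  · exact (hK z).2 a
  rw [Gm56.cn_cyl]
  refine (congrFun (congrFun (congrArg Nd18.ca (c.std i).tw.2.2) a) z).trans ?_
  cases a with
  | none => exact ((zero_add _).trans (zero_smul _ _)).symm
  | some k => rfl

theorem wt_mem (v : ℝ) : ‖Sw87.Mo.wt v‖ ≤ 1 :=
  (Real.norm_of_nonneg (Real.smoothTransition.nonneg _)).trans_le (Real.smoothTransition.le_one _)

theorem ext_ms (c : MC μ β) (i : τ.N) : Sm X.I ((τ.nb i).ext fun y => (c.ty i).en.cyl.ms (y, 0)) :=
  ext_sm (ms_sm c i)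

theorem wt_ms (c : MC μ β) (r : ℝ) (i : τ.N) :
    Sm X.I fun x => r • (τ.nb i).ext (fun y => (c.ty i).en.cyl.ms (y, 0)) x := fun x =>
  Wz78.SA.smul contMDiffAt_const (ext_ms c i x)

theorem sm_ms (c : MC μ β) (v : τ.N → ℝ) : Sm X.I (c.ms v) :=
  contMDiff_finsetSum fun i _ => wt_ms c _ i

theorem bd_ms {L : ℝ} (hL : ∀ s σ, |deriv (cu s) σ| ≤ L) (c : MC μ β) {K : ℝ}
    (hK : ∀ i, EBd K (c.ty i)) (t : Tk k) (x : X.M) :
    ‖c.ms (β.v t) x‖ ≤ Fintype.card τ.N * (|L| * |K| + |K|) ∧ ∀ a,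
      ‖cd (β.F t) (cn (β.F t) c.m.re) a (c.ms (β.v t)) x‖ ≤ Fintype.card τ.N * (|L| * |K| + |K|) := by
  have h0 : 0 ≤ |L| * |K| := by positivity
  have key : ∀ f : τ.N → En (μ ⊕ μ), (∀ i, ‖f i‖ ≤ |L| * |K| + |K|) →
      ‖∑ i, f i‖ ≤ Fintype.card τ.N * (|L| * |K| + |K|) := fun f h =>
    (norm_sum_le_of_le _ fun i _ => h i).trans_eq (by
      rw [Finset.sum_const, Finset.card_univ, nsmul_eq_mul])
  refine ⟨key _ fun i => ?_, fun a => ?_⟩
  · rw [norm_smul, NB.ext, norm_smul]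
    exact (mul_le_of_le_one_left (by positivity) (wt_mem _)).trans
      ((mul_le_of_le_one_left (norm_nonneg _) (cu_mem _ _)).trans
        (((hK i _).1.trans (le_abs_self _)).trans (le_add_of_nonneg_left h0)))
  · rw [show cd (β.F t) _ a (c.ms (β.v t)) x = _ from cd_sum fun i => wt_ms c _ i]
    refine key _ fun i => ?_
    rw [cd_smul contMDiff_const (ext_ms c i), Pre.D_def, Sob92.dv_const, Pi.zero_apply, zero_smul,
      zero_add, norm_smul]
    rcases le_or_gt (β.v t i) 1 with h | h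
    · rw [wt_lo h, norm_zero, zero_mul]; positivity
    · exact (mul_le_of_le_one_left (norm_nonneg _) (wt_mem _)).trans (bd_ext hL c (hK i) h a x)

/-- **E-BD** -/
theorem bd (hP : PzStmt κ μ) : BdStmt κ μ := by
  rintro X τ k β I c S hS hc hf ⟨K, hK⟩ hm
  obtain ⟨C1, h1⟩ := tame β
  obtain ⟨C2, h2⟩ := vol_thick hP β
  obtain ⟨C3, h3⟩ := bd_om β hS hc
  obtain ⟨L, hL⟩ := cu_der
  obtain ⟨C4, h4⟩ : ∃ C, ∀ i, ∀ t ∈ dom β.wl, ∀ x, ‖(c i).mc t x‖ ≤ C ∧
      ∀ a, ‖cd (β.F t) (cn (β.F t) (c i).m.re) a ((c i).mc t) x‖ ≤ C := by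
    rcases hm with h | ⟨_, h⟩
    · exact ⟨0, fun i t _ x => ⟨by simp [h i], fun a => by
        rw [cd_zero (.of_forall fun y => by simp [h i]), norm_zero]⟩⟩
    · choose C hC using fun i => bd_mc (c i) (h i)
      obtain ⟨D, hD⟩ := (finite_range C).bddAbove
      exact ⟨D, fun i t ht x => (hC i t ht x).imp (·.trans (hD ⟨i, rfl⟩))
        fun k a => (k a).trans (hD ⟨i, rfl⟩)⟩
  refine ⟨fun j => max (max (C1 j) C2) (max C3 (Fintype.card τ.N * (|L| * |K| + |K|) + C4)),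
    fun i t ht => ⟨⟨Cht98.Tame_mono (h1 t ht) fun _ => by simp, fun x => ?_, fun a x => ?_,
      fun x => ?_⟩, (h2 (c i) t ht).trans (ENNReal.ofReal_le_ofReal (by simp))⟩⟩
  · exact (norm_add_le_of_le (bd_ms hL (c i) (hK i) t x).1 (h4 i t ht x).1).trans (by simp)
  · exact (congrArg _ ((cd_tw (A := cn (β.F t) (c i).m.re) (jp_ms (hP.ok (c i) t).1.bg x) rfl).trans
      (cd_add (sm_ms (c i) _) ((c i).smc.sm trivial)))).trans_le
      ((norm_add_le_of_le ((bd_ms hL (c i) (hK i) t x).2 a) ((h4 i t ht x).2 a)).trans (by simp))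
  · exact (Sw88.norm_p2 (hP.ok (c i) t).1.bg _).trans
      ((h3 t ht _ (hf i t ht) ((c i).f0 t) x).trans (by simp))

end Crest.Agent.X212.Bd44
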