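import Crest.Agent.X212.Sw87.MoL
import Crest.Agent.X212.Cht98.Dp
import Crest.Agent.X212.Cht98.Fam

/-!
# Row 212, GEO engine (helper44), E-BD, part 1: long necks, tameness and volume
-/

set_option autoImplicit false
set_option linter.unusedSectionVars false
set_option maxHeartbeats 400000
noncomputable section
open scoped Manifold ContDiff Topology InnerProductSpace ENNReal
open MeasureTheory Set Function Filter

namespace Crest.Agent.X212.Bd44
open An Cyf70 Sw Flo2 Geo28 Met55 Sw87.Mo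
open Nd18 (Jv)
open Prm93 (JS JF)
open Cht98 (Agr Nck Jc TOn Deep)

variable {κ : Type} [Fintype κ] [DecidableEq κ] {μ : Type} [Fintype μ] [DecidableEq μ]
  {X : M4} {k : ℕ} {τ : MT κ X}

/-! ### the retraction -/

/-- long necks are cut to the length three -/
def rt (t : Tk k) : Tk k := fun c => min (t c) 3

theorem rt_mem {N : Type} {wl : Fin k → Option N} {t : Tk k} (h : t ∈ dom wl) :
    rt t ∈ Icc (0 : Tk k) 3 := ⟨fun c => le_min (h c).1 (by norm_num), fun _ => min_le_right _ _⟩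

theorem ret {α : Type} {f : Tk k → α} {t : Tk k}
    (h : ∀ c, 3 ≤ t c → ∀ s v, 3 ≤ s c → 3 ≤ v → f (update s c v) = f s) : f (rt t) = f t := by
  classical
  have key : ∀ S : Finset (Fin k), f (S.piecewise (rt t) t) = f t := fun S => by
    induction S using Finset.induction_on with
    | empty => rw [Finset.piecewise_empty]
    | insert c S hc ih =>
      rw [Finset.piecewise_insert, ← ih]
      have e : S.piecewise (rt t) t c = t c := Finset.piecewise_eq_of_notMem _ _ _ hc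
      rcases le_total 3 (t c) with h3 | h3
      · exact h c h3 _ _ (e ▸ h3) (le_min h3 le_rfl)
      · rw [show rt t c = S.piecewise (rt t) t c from (min_eq_left h3).trans e.symm, update_eq_self]
  simpa using key Finset.univ

theorem wl_ne {N : Type} {wl : Fin k → Option N} {t : Tk k} (h : t ∈ dom wl) {c : Fin k}
    (hc : 3 ≤ t c) : wl c ≠ none := fun e => by linarith [(h c).2 e]

theorem lng_rt {N α : Type} {wl : Fin k → Option N} {f : Tk k → α} (hf : Lng wl f) {t : Tk k}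
    (h : t ∈ dom wl) : f (rt t) = f t := ret fun c hc => hf c (wl_ne h hc)

variable (β : MB τ k)

/-- off the middle parts of the long necks -/
def W (t : Tk k) : Set X.M :=
  {x | ∀ c, ∀ i ∈ β.wl c, 3 ≤ t c → (τ.nb i).n.tm x ∉ Icc (3 / 2 : ℝ) (5 / 2)}

theorem W_open (t : Tk k) : IsOpen (W β t) := by
  simp only [W, ofPred_forall]
  refine isOpen_iInter_of_finite fun c => isOpen_iInter_of_finite fun i =>
    isOpen_iInter_of_finite fun _ => isOpen_iInter_of_finite fun _ => ?_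
  exact isClosed_Icc.isOpen_compl.preimage (τ.nb i).n.cont

variable {β}

theorem e_rt {t : Tk k} (h : t ∈ dom β.wl) {x : X.M} (hx : x ∈ W β t) (a : Option κ) :
    β.e (rt t) a x = β.e t a x :=
  ret (f := fun s => (β.e s a x : X.X.E)) fun c hc s v h1 h2 =>
    let ⟨i, hi⟩ := Option.ne_none_iff_exists'.1 (wl_ne h hc)
    β.loc c i hi s v h1 h2 x (hx c i hi hc) a

theorem agr {t : Tk k} (h : t ∈ dom β.wl) : Agr (β.G (rt t)) (β.G t) (W β t) :=
  ⟨W_open β t, fun _ hx a => (e_rt h hx a).symm, fun _ _ _ => rfl⟩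

theorem v_wall {c : Fin k} {i : τ.N} (h : β.wl c = some i) (t : Tk k) : β.v t i = t c := by
  rw [MB.v, MT.sw, if_pos (β.fin c i h), Finset.sum_eq_single c
    (fun c' _ e => if_neg fun h' => e (β.inj c' c i h' h)) (by simp), if_pos h]

theorem v_end {i : τ.N} (h : (τ.nb i).s ≠ none) (t : Tk k) : β.v t i = 2 := if_neg h

variable (τ) in
/-- a compact core -/
def K0 : Set X.M := {x | ∀ i, ((τ.nb i).s = some true → (τ.nb i).n.tm x ≤ 2) ∧
    ((τ.nb i).s = some false → -2 ≤ (τ.nb i).n.tm x)}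

theorem K0_cpt : IsCompact (K0 τ) := τ.cpt 2

variable (β) in
/-- off the cores of the bands with the switch `> a` -/
def Kt (a d : ℝ) (t : Tk k) : Set X.M := {x | ∀ i, a < β.v t i → x ∉ (τ.nb i).U d}

theorem Kt_closed (a d : ℝ) (t : Tk k) : IsClosed (Kt β a d t) := by
  simp only [Kt, ofPred_forall]
  exact isClosed_iInter fun i => isClosed_iInter fun _ => ((τ.nb i).U_open d).isClosed_compl

theorem Kt_sub {a d : ℝ} (ha : a < 2) (hd : -(1 / 4) ≤ d) (t : Tk k) :
    Kt β a d t ⊆ K0 τ ∩ W β t := fun x hx => by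
  have k : ∀ i, a < β.v t i → ∀ s, (τ.nb i).s = s → (τ.nb i).n.tm x ∉ Jm s d :=
    fun i h s e => e ▸ hx i h
  refine ⟨fun i => ⟨fun h => ?_, fun h => ?_⟩, fun c i hi h3 h => ?_⟩
  · have := k i (by rw [v_end (by simp [h])]; exact ha) _ h
    rw [jm_out] at this; linarith [not_lt.1 this]
  · have := k i (by rw [v_end (by simp [h])]; exact ha) _ h
    rw [jm_in] at this; linarith [not_lt.1 this]
  · exact k i (by rw [v_wall hi]; linarith) _ (β.fin c i hi)
      (jm_none.2 ⟨by linarith [h.1], by linarith [h.2]⟩)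

theorem Kt_cpt {a d : ℝ} (ha : a < 2) (hd : -(1 / 4) ≤ d) (t : Tk k) : IsCompact (Kt β a d t) :=
  K0_cpt.of_isClosed_subset (Kt_closed a d t) ((Kt_sub ha hd t).trans inter_subset_left)

/-- a bound on the bands and a jointly continuous function on the core -/
theorem bdd {g : Tk k → X.M → ℝ} (hg : ∀ t x, ContinuousAt (fun z : Tk k × X.M => g z.1 z.2) (t, x)) :
    ∃ C, ∀ t ∈ dom β.wl, ∀ x ∈ K0 τ, g (rt t) x ≤ C :=
  let ⟨C, hC⟩ := Cht98.bdd_fam (isCompact_Icc (a := (0 : Tk k)) (b := 3)) (K0_cpt (τ := τ))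
    fun t _ x _ => hg t x
  ⟨C, fun _ ht x hx => (le_abs_self _).trans (hC _ (rt_mem ht) x hx)⟩

theorem jf (β : MB τ k) : JF univ fun t => (β.F t).toPre := fun t _ x a =>
  Prm93.JV.of_tangent (β.sm a t x)

theorem vol (β : MB τ k) (t : Tk k) : (β.F t).IsVol := rFr_vol _ _

/-! ### necks -/

theorem nck {t : Tk k} {i : τ.N} (h : 1 < β.v t i) : Nck (τ.nb i).e.D.F.toPre (β.F t).toPre
    (pa (τ.nb i).s) (qa (β.v t i) (τ.nb i).s) ((τ.nb i).ψ (β.v t i)) ((τ.nb i).tm (β.v t i)) := by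
  have R := ((β.lit t i h).mono (d' := 0) (by norm_num)).rel
  refine ⟨NB.ψ_src _, (NB.ψ_tgt _).trans (Set.ext fun x => (st_mem _ _ _).symm),
    (st_sm _).continuous.comp (τ.nb i).n.cont, fun x hx => ?_,
    iso_vol (τ.std i).ok.G.vol (vol β t) R.sm R.sm' R.e⟩
  exact (congrArg (st _) (NB.tm_k hx.1.2)).trans (st_symm _ _)

theorem U_jc (b : NB κ X) (v : ℝ) :
    b.U (-(1 / 4)) ⊆ b.tm v ⁻¹' Jc (pa b.s) (qa v b.s) (1 / 4) := fun x hx => by
  have h : ∀ s σ, σ ∈ Jm s (-(1 / 4)) → st v σ ∈ Jc (pa s) (qa v s) (1 / 4) := fun s σ h => by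
    have h1 : 5 / 4 ≤ σ → 1 + 1 / 4 ≤ st v σ := fun k => by
      linarith [(st_mono v).monotone k, st_lo v (σ := 5 / 4) (by norm_num)]
    have h2 : σ ≤ 11 / 4 → st v σ ≤ len v + 1 - 1 / 4 := fun k => by
      linarith [(st_mono v).monotone k, st_hi v (σ := 11 / 4) (by norm_num)]
    rcases s with _ | _ | _
    · rw [jm_none] at h
      exact ⟨by rintro _ ⟨⟩; exact h1 (by linarith [h.1]), by rintro _ ⟨⟩; exact h2 (by linarith [h.2])⟩
    · rw [jm_in] at h
      exact ⟨by rintro _ ⟨⟩, by rintro _ ⟨⟩; rw [st_lo v (by linarith)]; linarith⟩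
    · rw [jm_out] at h
      exact ⟨by rintro _ ⟨⟩; exact h1 (by linarith), by rintro _ ⟨⟩⟩
  exact h _ _ hx

/-- **uniform tameness** -/
theorem tame (β : MB τ k) : ∃ C, ∀ t ∈ dom β.wl, (β.F t).Tame C := by
  classical
  obtain ⟨C0, h0⟩ := Cht98.tOn_fam (e := β.e) X.X.dim.le (β.F 0).toPre (vol β 0) isOpen_univ
    (fun t x _ a => β.sm a t x) (fun t x _ => β.sp t x)
    (isCompact_Icc (a := (0 : Tk k)) (b := 3)) (K0_cpt (τ := τ)) (subset_univ _)
  choose C1 h1 using fun i => Cht98.deep_nck (τ.nb i).e.D.F (τ.nb i).e.A.Y.dim.le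
    (δ := 1 / 4) (by norm_num)
  let C : ℕ → ℝ := fun j => |C0 j| + ∑ i, |C1 i j|
  refine ⟨fun j => ∑ n ∈ Finset.range (Fintype.card τ.N + 1), Cht98.cD (Option κ) n C j,
    fun t ht => ?_⟩
  have hs := Kt_sub (β := β) (a := 1) (d := -(1 / 4)) one_lt_two le_rfl t
  refine Cht98.Tame_mono (Cht98.tame_of_deep (J := {i // 1 < β.v t i}) (C := C)
    (U := fun i => (τ.nb i).tm (β.v t i) ⁻¹' Jc _ _ (1 / 4))
    (Kt_cpt (β := β) one_lt_two le_rfl t) (fun x hx => ?_) ?_ fun i => (h1 i (nck i.2)).mono subset_rfl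
      fun j => ?_) fun j => Finset.single_le_sum (f := fun n => Cht98.cD (Option κ) n C j)
        (fun n _ => ?_) (Finset.mem_range.2 (Nat.lt_succ_of_le (Fintype.card_subtype_le _)))
  · obtain ⟨i, hi, h⟩ : ∃ i, 1 < β.v t i ∧ x ∈ (τ.nb i).U (-(1 / 4)) := by
      by_contra hn
      exact hx fun i hi h => hn ⟨i, hi, h⟩
    exact ⟨⟨i, hi⟩, U_jc _ _ h⟩
  · refine (TOn.iso (φ := OpenPartialHomeomorph.ofSet (W β t) (W_open β t))
      (iso_vol (vol β t) (vol β (rt t)) contMDiffOn_id contMDiffOn_id fun a x hx => ?_)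
      (hs.trans inter_subset_right) (fun x hx => (hs hx).1)
      (h0 _ (rt_mem ht) _ (vol β _) rfl)).mono subset_rfl fun j =>
        le_add_of_nonneg_right (Finset.sum_nonneg fun _ _ => abs_nonneg _)
    exact (agr ht).rel.e a x hx
  · exact ((le_abs_self _).trans (Finset.single_le_sum (f := fun i => |C1 i j|)
      (fun _ _ => abs_nonneg _) (Finset.mem_univ _))).trans (le_add_of_nonneg_left (abs_nonneg _))
  · exact le_trans (by rw [Cht98.cA]; positivity) (Cht98.cA_le n C j)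

end Crest.Agent.X212.Bd44
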