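import Crest.Agent.X212.Bd44.Ret

/-!
# Row 212, GEO engine (helper44), E-BD, part 2: volume and forms
-/

set_option autoImplicit false
set_option linter.unusedSectionVars false
set_option maxHeartbeats 400000
noncomputable section
open scoped Manifold ContDiff Topology InnerProductSpace ENNReal
open MeasureTheory Set Function Filter

namespace Crest.Agent.X212.Bd44
open An Cyf70 Sw Flo2 Geo28 Met55 Sw87.Mo
open Nd18 (Jv)
open Prm93 (JS JF JAt)
open Cht98 (Agr Nck)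
open Dr59 (Cs)

variable {κ : Type} [Fintype κ] [DecidableEq κ] {μ : Type} [Fintype μ] [DecidableEq μ]
  {X : M4} {k : ℕ} {τ : MT κ X} {β : MB τ k}

theorem vol_collar (p q : Option ℝ) (d : ℝ) :
    volume (Jv p q \ Jv (p.map (· + d)) (q.map (· - d))) ≤ ENNReal.ofReal d + ENNReal.ofReal d := by
  refine (measure_mono (t := Icc (p.getD 0) (p.getD 0 + d) ∪ Icc (q.getD 0 - d) (q.getD 0))
    fun s hs => ?_).trans ((measure_union_le _ _).trans (by simp))
  rcases not_and_or.1 hs.2 with h | h <;> push Not at h <;> obtain ⟨a, ha, h⟩ := h <;>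
    obtain ⟨b, rfl, rfl⟩ := Option.map_eq_some_iff.1 ha
  exacts [.inl ⟨(hs.1.1 b rfl).le, h⟩, .inr ⟨h, (hs.1.2 b rfl).le⟩]

theorem vol_nck {Y : M.Mf 3} [CompactSpace Y.M] {FY : Pre Y.I Y.M κ} {F : Pre X.I X.M (Option κ)}
    {p q : Option ℝ} {ψ : OpenPartialHomeomorph (Y.M × ℝ) X.M} {tm : X.M → ℝ}
    (h : Nck FY F p q ψ tm) (d : ℝ) :
    F.μ (ψ.target \ ψ '' (univ ×ˢ Jv (p.map (· + d)) (q.map (· - d)))) ≤
      FY.μ univ * (ENNReal.ofReal d + ENNReal.ofReal d) := by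
  set S := Jv p q \ Jv (p.map (· + d)) (q.map (· - d))
  have hS : MeasurableSet (tm ⁻¹' S) :=
    h.cont.measurable ((jv_open _ _).measurableSet.diff (jv_open _ _).measurableSet)
  calc _ ≤ F.μ (tm ⁻¹' S ∩ ψ.target) := measure_mono fun x hx => ⟨⟨h.tgt.subset hx.1, fun k =>
        hx.2 ⟨ψ.symm x, ⟨trivial, by rwa [h.snd_symm hx.1]⟩, ψ.right_inv hx.1⟩⟩, hx.1⟩
    _ = (cylP FY).μ (ψ ⁻¹' (tm ⁻¹' S) ∩ ψ.source) := by
      rw [← Measure.restrict_apply hS, ← h.iso.μ, Measure.map_apply_of_aemeasurable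
        (ψ.continuousOn.aemeasurable ψ.open_source.measurableSet) hS,
        Measure.restrict_apply' ψ.open_source.measurableSet]
    _ ≤ (cylP FY).μ (univ ×ˢ S) := measure_mono fun x hx => ⟨trivial, h.tm_ψ x hx.2 ▸ hx.1⟩
    _ ≤ _ := (Measure.prod_prod _ _).trans_le (mul_le_mul_right (vol_collar p q d) _)

theorem vol_core (β : MB τ k) : ∃ C : ℝ≥0∞, C ≠ ⊤ ∧ ∀ t ∈ dom β.wl, (β.F t).μ (K0 τ ∩ W β t) ≤ C := by
  obtain ⟨c, hc⟩ := bdd (β := β) (g := fun t => Prm93.rd (β.F 0).toPre (β.F t).toPre) fun t x =>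
    ((JF.fixed _).rd (jf β) t trivial x).continuousAt
  have hK := (K0_cpt (τ := τ)).measurableSet
  refine ⟨ENNReal.ofReal c * (β.F 0).μ (K0 τ),
    ENNReal.mul_ne_top ENNReal.ofReal_ne_top K0_cpt.measure_lt_top.ne, fun t ht => ?_⟩
  calc _ = (β.F (rt t)).μ (K0 τ ∩ W β t) := by
        rw [← Measure.restrict_apply hK, ← Measure.restrict_apply hK]
        exact congrArg (· (K0 τ)) ((agr ht).μ (vol β _) (vol β _))
    _ ≤ (β.F (rt t)).μ (K0 τ) := measure_mono inter_subset_left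
    _ ≤ _ := by
      rw [Prm93.vol_eq (vol β 0) (vol β (rt t)), withDensity_apply _ hK, ← setLIntegral_const]
      exact setLIntegral_mono' hK fun x hx => ENNReal.ofReal_le_ofReal (hc t ht x hx)

/-- **the volume of the thick part** -/
theorem vol_thick (hP : PzStmt κ μ) (β : MB τ k) : ∃ C : ℝ, ∀ c : MC μ β, ∀ t ∈ dom β.wl,
    (β.F t).μ ((c.P t).thick 3) ≤ ENNReal.ofReal C := by
  obtain ⟨C, h1, h2⟩ := vol_core β
  refine ⟨(C + ∑ i, (τ.nb i).e.D.F.μ univ * (ENNReal.ofReal 3 + ENNReal.ofReal 3)).toReal,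
    fun c t ht => ?_⟩
  rw [ENNReal.ofReal_toReal (ENNReal.add_ne_top.2 ⟨h1, ENNReal.sum_ne_top.2 fun i _ =>
    ENNReal.mul_ne_top isCompact_univ.measure_lt_top.ne (by simp)⟩)]
  refine (measure_mono (t := K0 τ ∩ W β t ∪ ⋃ i, ((c.P t).nk i).elim ∅ fun K =>
    K.ψ.target \ K.ψ '' (univ ×ˢ K.deep 3)) fun x hx => ?_).trans ((measure_union_le _ _).trans
      (add_le_add (h2 t ht) ((measure_iUnion_fintype_le _ _).trans (Finset.sum_le_sum fun i _ => ?_))))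
  · refine or_iff_not_imp_left.2 fun hn => ?_
    obtain ⟨i, hi, h⟩ : ∃ i, 3 / 2 < β.v t i ∧ x ∈ (τ.nb i).U 0 := by
      by_contra hn'
      exact hn (Kt_sub (a := 3 / 2) (d := 0) (by norm_num) (by norm_num) t
        fun i hi h => hn' ⟨i, hi, h⟩)
    obtain ⟨K, hK, e⟩ := hP.nk c t (c.ct t) i hi
    refine mem_iUnion.2 ⟨i, ?_⟩
    rw [show (c.P t).nk i = some K from hK]
    refine ⟨?_, hx i K hK⟩
    rw [show K.ψ = (τ.nb i).ψ (β.v t i) from congrArg (·.2.2.1) e, NB.ψ_tgt]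
    exact h
  · cases (c.P t).nk i with
    | none => simp
    | some K => exact vol_nck (Cht98.nck K.toNk) 3

/-! ### forms -/

theorem cmp_cont (β : MB τ k) {f : X.Fm} (hf : Cs X.I 2 univ f) (t : Tk k) (x : X.M) :
    ContinuousAt (fun z : Tk k × X.M => ‖cmp (β.e z.1) f z.2‖) (t, x) := by
  refine ContinuousAt.norm ((PiLp.continuous_toLp 2 _).continuousAt.comp
    (continuousAt_pi.2 fun s => ?_))
  have e : ∀ z : Tk k × X.M, Int54.cf (β.e z.1) 2 f ![s.1, s.2] z.2 = ∑ Φ : Fin 2 → Option κ,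
      (∏ i, fT (β.e 0) (β.e z.1 (![s.1, s.2] i)) z.2 (Φ i)) * Int54.cf (β.e 0) 2 f Φ z.2 :=
    fun z => by
      refine Eq.trans ?_ (Int54.evA_mix 2 (f z.2) (Int54.fv (β.e 0) z.2) _)
      rw [Int54.cf]
      congr 1
      exact funext fun i => (sum_fT (β.sp 0 z.2) _).symm
  simp only [e]
  refine tendsto_finsetSum _ fun Φ _ => ContinuousAt.mul (tendsto_finsetProd _ fun i _ => ?_) ?_
  · exact ((JF.fixed (β.F 0).toPre).mix (jf β) _ _ t trivial x).continuousAt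
  · exact (JAt.of_fixed (Int54.contMDiffAt_cf le_rfl (β.fr 0 x).1 (hf.cl.sm x trivial) Φ)).continuousAt

theorem cmp_lin (e : Option κ → VF X.I X.M) (x : X.M) : IsLinearMap ℝ fun f : X.Fm => cmp e f x :=
  ⟨fun f g => by ext s; simp [Sw87.Mo.cmp, Int54.cf], fun r f => by ext s; simp [Sw87.Mo.cmp, Int54.cf]⟩

/-- **the forms** -/
theorem bd_om (β : MB τ k) {S : Set X.Fm} (hS : S.Finite) (hc : ∀ f ∈ S, Cs X.I 2 univ f) :
    ∃ C, ∀ t ∈ dom β.wl, ∀ f ∈ convexHull ℝ S, (∀ i, 1 < β.v t i → ∀ x ∈ (τ.nb i).U 0, f x = 0) →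
      ∀ x, ‖cmp (β.e t) f x‖ ≤ C := by
  have := hS.to_subtype
  choose c h using fun f : S => bdd (β := β) (g := fun t x => ‖cmp (β.e t) f x‖)
    (cmp_cont β (hc f f.2))
  obtain ⟨C, hC⟩ := (finite_range c).bddAbove
  refine ⟨max C 0, fun t ht f hf h0 x => ?_⟩
  by_cases hx : x ∈ Kt β 1 0 t
  · have h1 := Kt_sub one_lt_two (by norm_num) t hx
    have e : cmp (β.e t) f x = cmp (β.e (rt t)) f x := by
      simp only [Sw87.Mo.cmp, Int54.cf, Int54.fv, e_rt ht h1.2]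
    rw [e]
    have h2 := convexHull_min (s := S) (fun g hg => ?_)
      ((convex_closedBall (0 : F2 κ) C).is_linear_preimage (cmp_lin (β.e (rt t)) x)) hf
    · exact le_max_of_le_left (mem_closedBall_zero_iff.1 h2)
    · exact mem_closedBall_zero_iff.2 ((h ⟨g, hg⟩ t ht x h1.1).trans (hC ⟨_, rfl⟩))
  · obtain ⟨i, hi, h⟩ : ∃ i, 1 < β.v t i ∧ x ∈ (τ.nb i).U 0 := by
      by_contra hn
      exact hx fun i hi h => hn ⟨i, hi, h⟩
    rw [show cmp (β.e t) f x = 0 by ext s; simp [Sw87.Mo.cmp, Int54.cf, h0 i hi x h], norm_zero]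
    exact le_max_right _ _

end Crest.Agent.X212.Bd44
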